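import Vale.Agent.P093.N.Nak1
import Vale.Agent.P221.H658.Rb

/-!
# P221, part E (integral version): subobjects of `R_* X` stable under the operations, quotients,
cochains (frozen interface, helper903)

`R` a monoid. Only sphere objects `A`, `S` (`IsSphere`) matter in `OpSub` and `Quo`.

* `push e z : S ⊗ A ⟶ D' ⊗ X` for `e : S ⊗ D ⟶ D'`, `z : A ⟶ D ⊗ X`;
* `OpSub R X` : a subobject of `R_* X` stable under the operations `e : S ⊗ R ⟶ R`; `OpSub.top`;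
* `Quo G Y` : a surjection `G ⟶ R_* Y` compatible with the operations; `Quo.ker`;
* `Fl R 𝒴 m G` : `G` has a filtration of length `m` with quotients `R_* Y`, `𝒴 Y`;
* `HasAct R Y` : a unital action `R ⊗ Y ⟶ Y`;
* `OpSub.In G a`, `Quo.Rel q a b` : the subgroup of `[W, X]`, and `a ↦ b`, `[W, X] ⇢ [W, Y]`;
* `dR`, `dRR`, `Prim`, `Cyc`, `H1`, `Col` : cochains `[W, R ⊗ X]`, `[W, (R ⊗ R) ⊗ X]`;
* `FreeOn R W` : a basis of `R ⊗ W` over `R`; `BasR R` : a basis of `R ⊗ R` over the second factor.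
-/

open CategoryTheory MonoidalCategory MonObj Limits Pretriangulated
open Vale.Agent.P251.S Vale.Agent.P251.T Vale.Agent.P251.M Vale.Agent.P093.Nak
open Vale.Agent.P221.H658 (rb ru)

set_option linter.unusedSectionVars false

universe u

namespace Vale.Agent.P221.E

section push

variable {T : Type u} [Category.{0} T] [MonoidalCategory T]

/-- the action of `e : S ⊗ D ⟶ D'` on `z : A ⟶ D ⊗ X` -/
def push {S D D' A X : T} (e : S ⊗ D ⟶ D') (z : A ⟶ D ⊗ X) : S ⊗ A ⟶ D' ⊗ X :=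
  S ◁ z ≫ (α_ S D X).inv ≫ e ▷ X

end push

variable {T : Type u} [Category.{0} T] [Preadditive T] [HasZeroObject T]
    [HasShift T ℤ] [∀ n : ℤ, (shiftFunctor T n).Additive] [Pretriangulated T] [IsTriangulated T]
    [MonoidalCategory T] [SymmetricCategory T] [TensorTriangulated T] [MonoidalClosed T]
    [HasCoproducts.{0} T] [HasProducts.{0} T] [StableCat T]

/-- A subobject of `R_* X` stable under the operations of `R`. -/
structure OpSub (R X : T) where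
  /-- the elements, `A` a sphere -/
  mem : ∀ {A : T}, (A ⟶ R ⊗ X) → Prop
  zero : ∀ {A : T}, IsSphere A → mem (0 : A ⟶ R ⊗ X)
  sub : ∀ {A : T}, IsSphere A → ∀ {y y' : A ⟶ R ⊗ X}, mem y → mem y' → mem (y - y')
  comp : ∀ {A B : T}, IsSphere A → IsSphere B → ∀ (u : B ⟶ A) {y : A ⟶ R ⊗ X}, mem y →
    mem (u ≫ y)
  op : ∀ {S A : T}, IsSphere S → IsSphere A → ∀ (e : S ⊗ R ⟶ R) {y : A ⟶ R ⊗ X}, mem y →
    mem (push e y)

/-- everything -/
def OpSub.top (R X : T) : OpSub R X where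
  mem _ := True
  zero _ := trivial
  sub _ _ _ _ _ := trivial
  comp _ _ _ _ _ := trivial
  op _ _ _ _ _ := trivial

/-- A surjection `φ : G ⟶ R_* Y` compatible with the operations. (`φ y` is junk if `y ∉ G`.) -/
structure Quo {R X : T} (G : OpSub R X) (Y : T) where
  /-- the map, `A` a sphere -/
  φ : ∀ {A : T}, (A ⟶ R ⊗ X) → (A ⟶ R ⊗ Y)
  zero : ∀ {A : T}, IsSphere A → φ (0 : A ⟶ R ⊗ X) = 0
  sub : ∀ {A : T}, IsSphere A → ∀ {y y' : A ⟶ R ⊗ X}, G.mem y → G.mem y' →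
    φ (y - y') = φ y - φ y'
  comp : ∀ {A B : T}, IsSphere A → IsSphere B → ∀ (u : B ⟶ A) {y : A ⟶ R ⊗ X}, G.mem y →
    φ (u ≫ y) = u ≫ φ y
  op : ∀ {S A : T}, IsSphere S → IsSphere A → ∀ (e : S ⊗ R ⟶ R) {y : A ⟶ R ⊗ X}, G.mem y →
    φ (push e y) = push e (φ y)
  surj : ∀ {A : T}, IsSphere A → ∀ z : A ⟶ R ⊗ Y, ∃ y, G.mem y ∧ φ y = z

theorem push_zero {S D D' A X : T} (e : S ⊗ D ⟶ D') : push e (0 : A ⟶ D ⊗ X) = 0 := by
  unfold push
  rw [MonoidalPreadditive.whiskerLeft_zero, zero_comp]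

/-- the kernel -/
def Quo.ker {R X Y : T} {G : OpSub R X} (q : Quo G Y) : OpSub R X where
  mem y := G.mem y ∧ q.φ y = 0
  zero hA := ⟨G.zero hA, q.zero hA⟩
  sub hA _ _ h h' := ⟨G.sub hA h.1 h'.1, by rw [q.sub hA h.1 h'.1, h.2, h'.2, sub_zero]⟩
  comp hA hB u _ h := ⟨G.comp hA hB u h.1, by rw [q.comp hA hB u h.1, h.2, comp_zero]⟩
  op hS hA e _ h := ⟨G.op hS hA e h.1, by rw [q.op hS hA e h.1, h.2, push_zero]⟩

/-- `G` has a filtration of length `m` with quotients `R_* Y`, `𝒴 Y`. -/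
inductive Fl {R X : T} (𝒴 : T → Prop) : ℕ → OpSub R X → Prop
  | zero {G : OpSub R X} : (∀ (A : T) (y : A ⟶ R ⊗ X), IsSphere A → G.mem y → y = 0) → Fl 𝒴 0 G
  | succ {m : ℕ} {G : OpSub R X} {Y : T} (q : Quo G Y) : 𝒴 Y → Fl 𝒴 m q.ker → Fl 𝒴 (m + 1) G

/-- a unital action -/
def HasAct (R : T) [MonObj R] (Y : T) : Prop := ∃ a : R ⊗ Y ⟶ Y, un R Y ≫ a = 𝟙 Y

/-- the subgroup of `[W, X]` -/
def OpSub.In {R X : T} (G : OpSub R X) {W : T} (a : W ⟶ X) : Prop :=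
  ∀ A : T, IsSphere A → ∀ w : A ⟶ R ⊗ W, G.mem (w ≫ R ◁ a)

/-- `b : W ⟶ Y` is the image of `a : W ⟶ X` -/
def Quo.Rel {R X Y : T} {G : OpSub R X} (q : Quo G Y) {W : T} (a : W ⟶ X) (b : W ⟶ Y) : Prop :=
  ∀ A : T, IsSphere A → ∀ w : A ⟶ R ⊗ W, q.φ (w ≫ R ◁ a) = w ≫ R ◁ b

section cob

variable (R : T) [MonObj R]

/-- `r ↦ r ⊗ 1 - 1 ⊗ r` -/
def dR : R ⟶ R ⊗ R := ru R R - un R R

/-- `r ⊗ s ↦ 1 ⊗ r ⊗ s - r ⊗ 1 ⊗ s + r ⊗ s ⊗ 1` -/
def dRR : R ⊗ R ⟶ R ⊗ (R ⊗ R) := un R (R ⊗ R) - R ◁ un R R + R ◁ ru R R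

variable {R}

/-- primitive elements of `[W, R ⊗ X]` -/
def Prim {W X : T} (f : W ⟶ R ⊗ X) : Prop := f ≫ dR R ▷ X = 0

/-- cocycles -/
def Cyc {W X : T} (K : W ⟶ (R ⊗ R) ⊗ X) : Prop := K ≫ dRR R ▷ X = 0

variable (R)

/-- `Ext¹ = 0` -/
def H1 (W X : T) : Prop := ∀ K : W ⟶ (R ⊗ R) ⊗ X, Cyc K → ∃ g : W ⟶ R ⊗ X, K = g ≫ dR R ▷ X

/-- `[W, X]` is the group of primitive elements of `[W, R ⊗ X]` -/
def Col (W X : T) : Prop := ∀ f : W ⟶ R ⊗ X, Prim f → ∃! a : W ⟶ X, a ≫ un R X = f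

/-- a basis of `R ⊗ W` over `R` -/
structure FreeOn (W : T) where
  /-- the index set -/
  J : Type
  /-- the spheres -/
  S : J → T
  sph : ∀ j, IsSphere (S j)
  /-- the elements -/
  w : ∀ j, S j ⟶ R ⊗ W
  isIso : IsIso (Sigma.desc fun j => lin (ModStr.free R W) (w j))

/-- a basis of `R ⊗ R` over the second factor -/
structure BasR where
  /-- the index set -/
  J : Type
  /-- the spheres -/
  S : J → T
  sph : ∀ j, IsSphere (S j)
  /-- the elements -/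
  w : ∀ j, S j ⟶ R ⊗ R
  isIso : IsIso (rb (ModStr.self R) (Sigma.desc w))

end cob

/-- the tower: `X, I ⊗ X, I ⊗ (I ⊗ X), …` -/
def tw (I X : T) : ℕ → T
  | 0 => X
  | s + 1 => I ⊗ tw I X s

end Vale.Agent.P221.E
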