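import Vale.Agent.P221.E.Defs

/-!
# P221, part E: the subobjects on `π_* (D ⊗ X)`, `D` a retract of a sum of suspensions of `R`
(frozen interface, helper903)

* `OpSub.memD G z` : `z ∈ π_* (D ⊗ X)` lies in the subobject;
* `Quo.RelD q z t` : `t ∈ π_* (D ⊗ Y)` is the image of `z`;
* `AddR R D` : `D` is a retract of a sum of suspensions of `R`.
-/

open CategoryTheory MonoidalCategory MonObj Limits Pretriangulated
open Vale.Agent.P251.S Vale.Agent.P251.T Vale.Agent.P251.M Vale.Agent.P093.Nak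

set_option linter.unusedSectionVars false

universe u

namespace Vale.Agent.P221.E

variable {T : Type u} [Category.{0} T] [Preadditive T] [HasZeroObject T]
    [HasShift T ℤ] [∀ n : ℤ, (shiftFunctor T n).Additive] [Pretriangulated T] [IsTriangulated T]
    [MonoidalCategory T] [SymmetricCategory T] [TensorTriangulated T] [MonoidalClosed T]
    [HasCoproducts.{0} T] [HasProducts.{0} T] [StableCat T]

/-- `z ∈ π_* (D ⊗ X)` lies in the subobject given by `G` -/
def OpSub.memD {R X : T} (G : OpSub R X) {D A : T} (z : A ⟶ D ⊗ X) : Prop :=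
  ∀ B : T, IsSphere B → ∀ e : B ⊗ D ⟶ R, G.mem (push e z)

/-- `t ∈ π_* (D ⊗ Y)` is the image of `z ∈ π_* (D ⊗ X)` -/
def Quo.RelD {R X Y : T} {G : OpSub R X} (q : Quo G Y) {D A : T} (z : A ⟶ D ⊗ X)
    (t : A ⟶ D ⊗ Y) : Prop :=
  ∀ B : T, IsSphere B → ∀ e : B ⊗ D ⟶ R, q.φ (push e z) = push e t

/-- `D` is a retract of a sum of suspensions of `R`. -/
structure AddR (R D : T) where
  /-- the index set -/
  I : Type
  /-- the spheres -/
  S : I → T
  sph : ∀ i, IsSphere (S i)
  /-- the inclusion -/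
  ι : D ⟶ ∐ fun i => S i ⊗ R
  /-- the retraction -/
  r : (∐ fun i => S i ⊗ R) ⟶ D
  ι_r : ι ≫ r = 𝟙 D

end Vale.Agent.P221.E
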